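import Vale.Agent.P011IZ.End

namespace Vale.Agent.Results.P011.AAAAAAIntrinsicAll

open Matrix Vale.Agent.P011L Vale.Agent.P011LZ Vale.Agent.P092GV Vale.Agent.P011I

/-- **The Margulis-Platonov conjecture** for all absolutely almost simple simply connected groups
over global fields. -/
theorem result (k Ω : Type) [Field k] [Field Ω] [Algebra k Ω] [IsAlgClosure k Ω] (hk : Glob k)
    (n : ℕ) (G : Subgroup (GL (Fin n) Ω)) (h1 : AbsSimple k G) (h2 : SConn G) : MPG k G :=
  P011IZ.qi k Ω hk n G h1 h2

end Vale.Agent.Results.P011.AAAAAAIntrinsicAll
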