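import Vale.Agent.P011U.End

namespace Vale.Agent.Results.P011.AAAAAFull

open Matrix Vale.Agent.P011L Vale.Agent.P011LZ Vale.Agent.P183CH Vale.Agent.P011U

/-- **The Margulis-Platonov conjecture** for all forms over global fields of the simply connected
Chevalley groups. -/
theorem result (k K : Type) [Field k] [Field K] [Algebra k K] [IsSepClosure k K] (hk : Glob k)
    (D : Chev) (hD : SC D) (m : ℕ) (G : Subgroup (GL (Fin m) K)) (φ : G ≃* D.grp K)
    (h : Form k φ) : MPG k G :=
  q1 k K hk D hD m G φ h

end Vale.Agent.Results.P011.AAAAAFull
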