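import Vale.Agent.P011LS.Top
import Vale.Agent.P011LZ.Defs

namespace Vale.Agent.Results.P011.AAAAIntrinsic

open Matrix Vale.Agent.P011L Vale.Agent.P011LZ

/-- **The Margulis-Platonov conjecture** for the anisotropic forms of the split simply connected
groups: the outer forms of type `A` over global fields, and the trialitarian forms of type `D₄`
and the forms of type `E₆` over number fields. -/
theorem result (k K : Type) [Field k] [Field K] [Algebra k K] [IsSepClosure k K] (m : ℕ)
    (G : Subgroup (GL (Fin m) K)) (h : Ani (Pts k G k)) :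
    (∀ (n : ℕ) (φ : G ≃* SA K n), 3 ≤ n → Glob k → Form k φ →
      (∃ σ : K ≃ₐ[k] K, ¬Inn φ ⊤ σ) → MPG k G) ∧
    (∀ φ : G ≃* SD K, NumberField k → Form k φ → (∃ σ : K ≃ₐ[k] K, ¬Inn φ (SD K) (σ * σ)) →
      MPG k G) ∧
    ∀ φ : G ≃* SE K, NumberField k → Form k φ → MPG k G :=
  Vale.Agent.P011LS.int k K m G h

end Vale.Agent.Results.P011.AAAAIntrinsic
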