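import Vale.Agent.P011ND.Top
import Vale.Agent.P011NF.Meet

namespace Vale.Agent.Results.P011.AAAMargulisPlatonovAll

open Vale.Agent.P011 Vale.Agent.P011.H925.Full Vale.Agent.P011.H900 Vale.Agent.P011NC

/-- **The Margulis-Platonov conjecture over global fields**, for arbitrary normal subgroups: the
anisotropic outer forms of type `A` (first clause) and, over number fields, the anisotropic
trialitarian groups (second and third clause) and the anisotropic groups of type `E₆` (last three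
clauses). -/
theorem result {k K A Ω : Type} [Field k] [Field K] [Algebra k K] [StarRing K] [Ring A]
    [StarRing A] [Algebra k A] [Algebra K A] [IsScalarTower k K A] [StarModule K A]
    [Field Ω] [Algebra K Ω] {n : ℕ} (f : A →ₐ[K] Matrix (Fin n) (Fin n) Ω)
    {F : Type} [Field F] [NumberField F] (r s i : F → F) (a b c d q e t : F) (g : Fin 3 → F) :
    (Ans k K A n → ∃ δ : GK f →* HA k K A n, (∀ g, Diag g.1.1 (δ g)) ∧ DenseRange δ ∧
      ∀ N : Subgroup (GK f), N.Normal → ¬N ≤ Subgroup.center (GK f) →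
        ∃ W : Subgroup (HA k K A n), IsOpen (W : Set (HA k K A n)) ∧ W.Normal ∧ N = W.comap δ) ∧
    (Dat [r, s] r s a b c d q →
      Simp fun f : Oc a b → Oc a b => Tri c r f ∧ Twi c r s d q f) ∧
    (Dat [r, s, i] r s a b c d q → Aut 2 i → (∀ x, s (i x) = i (s x)) →
      (∀ x, r (i (r x)) = i x) → i d = d → r (i q) = q →
      Simp fun f : Oc a b → Oc a b => Tri c r f ∧ Twi c r s d q f ∧ Swp i f) ∧
    (Aut 2 s → Dvn [s] [s] a b c → (∀ i, s (g i) = g i) →
      (∀ x : Al a b, her c s g x x = 0 → x = 0) →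
      Simp fun f : Al a b → Al a b => Cub c f ∧ Her c s g f) ∧
    (Aut 3 r → Dvn [r] [r] a b c → Nnm r e →
      Simp fun f : Al a b → Al a b => Cub c f ∧ Ph r e f) ∧
    (Aut 3 r → Aut 2 s → (∀ x, r (s x) = s (r x)) → Dvn [r, s] [r, s] a b c → Nnm r e →
      Wei r s e t g → (Dvn [] [] a b c ∨ ∀ x : Al a b, her c s g x x = 0 → x = 0) →
      Simp fun f : Al a b → Al a b => Cub c f ∧ Her c s g f ∧ Ph r e f) :=
  ⟨fun h => clauseA_all h f,
    fun h N h1 => (P011ND.d3m h N h1).resolve_left,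
    fun h a1 a2 a3 a4 a5 N h1 => (P011ND.d4m h a1 a2 a3 a4 a5 N h1).resolve_left,
    fun a1 a2 a3 a4 N h1 => (P011NF.e1n a1 (a2.1 s (by simp)) a3 a4 N h1).resolve_left,
    fun a1 a2 a3 N h1 => (NE.e2m a1 a2 a3 N h1).resolve_left,
    fun a1 a2 a3 a4 a5 a6 a7 N h1 => (P011ND.e3m a1 a2 a3 a4 a5 a6 a7 N h1).resolve_left⟩

end Vale.Agent.Results.P011.AAAMargulisPlatonovAll
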